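import Vale.Agent.P101.Lit.Basic

/-! P101: coefficientwise maps of stages, and elementary tensors. -/

namespace Vale.Agent.P101.Lit

open scoped unitInterval ComplexOrder

section

variable {B B' : Type*} [CStarAlgebra B] [PartialOrder B] [StarOrderedRing B]
  [CStarAlgebra B'] [PartialOrder B'] [StarOrderedRing B'] {p q : ℕ}

omit [PartialOrder B] [StarOrderedRing B] [PartialOrder B'] [StarOrderedRing B'] in
theorem continuous_hom (φ : B →⋆ₐ[ℂ] B') : Continuous φ :=
  AddMonoidHomClass.continuous_of_bound φ 1 fun x => by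
    simpa using NonUnitalStarAlgHom.norm_apply_le φ x

/-- Apply `φ` to every coefficient. -/
noncomputable def mapSt (φ : B →⋆ₐ[ℂ] B') : St B p q →⋆ₐ[ℂ] St B' p q where
  toFun f := ⟨⟨fun t => CStarMatrix.ofMatrix <| Matrix.of fun x y => φ ((f : Amb B p q) t x y),
      continuous_pi fun x => continuous_pi fun y => (continuous_hom φ).comp
        ((continuous_apply_apply x y).comp (f : Amb B p q).continuous)⟩,
    by
      obtain ⟨a, ha⟩ := f.2.1
      exact ⟨fun i i' => φ (a i i'), fun x y => by
        refine (congrArg φ (ha x y)).trans ?_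
        split_ifs <;> simp⟩,
    by
      obtain ⟨a, ha⟩ := f.2.2
      exact ⟨fun i i' => φ (a i i'), fun x y => by
        refine (congrArg φ (ha x y)).trans ?_
        split_ifs <;> simp⟩⟩
  map_one' := Subtype.ext (ContinuousMap.ext fun t => CStarMatrix.ext fun x y => by
    simp [CStarMatrix.one_apply, apply_ite φ])
  map_mul' b c := Subtype.ext (ContinuousMap.ext fun t => CStarMatrix.ext fun x y => by
    show φ ((((b : Amb B p q) t) * ((c : Amb B p q) t)) x y) =
      ∑ z, φ ((b : Amb B p q) t x z) * φ ((c : Amb B p q) t z y)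
    simp [CStarMatrix.mul_apply])
  map_zero' := Subtype.ext (ContinuousMap.ext fun t => CStarMatrix.ext fun x y => by simp)
  map_add' b c := Subtype.ext (ContinuousMap.ext fun t => CStarMatrix.ext fun x y => by
    show φ ((b : Amb B p q) t x y + (c : Amb B p q) t x y) = _
    rw [map_add]; rfl)
  commutes' r := Subtype.ext (ContinuousMap.ext fun t => CStarMatrix.ext fun x y => by
    simp only [Algebra.algebraMap_eq_smul_one]
    simp [CStarMatrix.one_apply, apply_ite φ, map_smul])
  map_star' b := Subtype.ext (ContinuousMap.ext fun t => CStarMatrix.ext fun x y => by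
    show φ (star ((b : Amb B p q) t y x)) = star (φ ((b : Amb B p q) t y x))
    exact map_star φ _)

@[simp] theorem mapSt_apply (φ : B →⋆ₐ[ℂ] B') (f : St B p q) (t : I) (x y : Ix p q) :
    (mapSt φ f : Amb B' p q) t x y = φ ((f : Amb B p q) t x y) := rfl

theorem mapSt_cst (φ : B →⋆ₐ[ℂ] B') (b : B) :
    mapSt φ (cst B p q b) = cst B' p q (φ b) :=
  Subtype.ext (ContinuousMap.ext fun t => CStarMatrix.ext fun x y => by simp [apply_ite φ])

theorem mapSt_lift (φ : B →⋆ₐ[ℂ] B') (g : St ℂ p q) :
    mapSt φ (lift B p q g) = lift B' p q g :=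
  Subtype.ext (ContinuousMap.ext fun t => CStarMatrix.ext fun x y => by
    simp [AlgHomClass.commutes])

end

variable {A B C : Type*} [CStarAlgebra A] [PartialOrder A] [StarOrderedRing A]
  [CStarAlgebra B] [PartialOrder B] [StarOrderedRing B]
  [CStarAlgebra C] [PartialOrder C] [StarOrderedRing C] {p q : ℕ}

theorem commute_cst_lift (b : B) (g : St ℂ p q) : Commute (cst B p q b) (lift B p q g) :=
  Subtype.ext (ContinuousMap.ext fun t => CStarMatrix.ext fun x y => by
    show ((cst B p q b : Amb B p q) t * (lift B p q g : Amb B p q) t) x y =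
      ((lift B p q g : Amb B p q) t * (cst B p q b : Amb B p q) t) x y
    simp [CStarMatrix.mul_apply, (Algebra.commutes _ b)])

/-- A finite combination of elementary tensors commutes with a constant up to the commutators of
the coefficients. -/
theorem norm_tensor_commutator_le {m : ℕ} (b : Fin m → A) (h : Fin m → St ℂ p q) (a : A) :
    ‖(∑ l, cst A p q (b l) * lift A p q (h l)) * cst A p q a
        - cst A p q a * ∑ l, cst A p q (b l) * lift A p q (h l)‖
      ≤ ∑ l, ‖b l * a - a * b l‖ * ‖lift A p q (h l)‖ := by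
  rw [Finset.sum_mul, Finset.mul_sum, ← Finset.sum_sub_distrib]
  refine (norm_sum_le _ _).trans (Finset.sum_le_sum fun l _ => ?_)
  rw [mul_assoc, ← (commute_cst_lift a (h l)).eq, ← mul_assoc, ← mul_assoc, ← sub_mul,
    ← map_mul, ← map_mul, ← map_sub]
  exact (norm_mul_le _ _).trans (mul_le_mul_of_nonneg_right
    (NonUnitalStarAlgHom.norm_apply_le _ _) (norm_nonneg _))

theorem mapSt_tensor (π : C →⋆ₐ[ℂ] B) {m : ℕ} (c : Fin m → C) (h : Fin m → St ℂ p q) :
    mapSt π (∑ l, cst C p q (c l) * lift C p q (h l)) =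
      ∑ l, cst B p q (π (c l)) * lift B p q (h l) := by
  simp only [map_sum, map_mul, mapSt_cst, mapSt_lift]

section

variable {A : Type*} [CStarAlgebra A] [PartialOrder A] [StarOrderedRing A]

theorem norm_cst (i : ℕ) (a : A) : ‖cst A (pp i) (qq i) a‖ = ‖a‖ := by
  refine NonUnitalStarAlgHom.norm_map (cst A (pp i) (qq i)) (fun b c h => ?_) a
  have := congrArg (fun f : St A (pp i) (qq i) =>
    (f : Amb A (pp i) (qq i)) 0 (⟨0, pp_pos i⟩, ⟨0, qq_pos i⟩) (⟨0, pp_pos i⟩, ⟨0, qq_pos i⟩)) h
  simpa using this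

theorem separableSpace_St [TopologicalSpace.SeparableSpace A] (p q : ℕ) :
    TopologicalSpace.SeparableSpace (St A p q) := by
  have : SecondCountableTopology A := UniformSpace.secondCountable_of_separable A
  have : SecondCountableTopology (CStarMatrix (Ix p q) (Ix p q) A) :=
    inferInstanceAs (SecondCountableTopology (Ix p q → Ix p q → A))
  infer_instance

end

section

theorem mapSt_mem_unitary {B D : Type*} [CStarAlgebra B] [PartialOrder B] [StarOrderedRing B]
    [CStarAlgebra D] [PartialOrder D] [StarOrderedRing D] {p q : ℕ}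
    (ψ : D →⋆ₐ[ℂ] B) {w : St D p q} (hw : w ∈ unitary (St D p q)) :
    mapSt ψ w ∈ unitary (St B p q) := by
  rw [Unitary.mem_iff, ← map_star, ← map_mul, ← map_mul, (Unitary.mem_iff.1 hw).1,
    (Unitary.mem_iff.1 hw).2]
  simp

/-- Push a unitary of the double stage through a map of the first factor. -/
theorem push_double_flip {B : Type*} [CStarAlgebra B] [PartialOrder B] [StarOrderedRing B]
    {D : Type*} [CStarAlgebra D] [PartialOrder D] [StarOrderedRing D] {p q : ℕ}
    (ψ : D →⋆ₐ[ℂ] B) {w : St D p q} {d : D} {g : St ℂ p q}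
    {ε : ℝ} (h : ‖w * cst D p q d * star w - lift D p q g‖ ≤ ε) :
    ‖mapSt ψ w * cst B p q (ψ d) * star (mapSt ψ w) - lift B p q g‖ ≤ ε := by
  rw [← mapSt_cst, ← mapSt_lift ψ, ← map_star, ← map_mul, ← map_mul, ← map_sub]
  exact (NonUnitalStarAlgHom.norm_apply_le _ _).trans h

end

section

/-- Apply `φ` to every entry of a matrix. -/
noncomputable def mapMat {ι : Type*} [Fintype ι] [DecidableEq ι] (φ : B →⋆ₐ[ℂ] A) :
    CStarMatrix ι ι B →⋆ₐ[ℂ] CStarMatrix ι ι A where
  toFun m := CStarMatrix.ofMatrix <| Matrix.of fun x y => φ (m x y)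
  map_one' := CStarMatrix.ext fun x y => by simp [CStarMatrix.one_apply, apply_ite φ]
  map_mul' m m' := CStarMatrix.ext fun x y => by
    show φ ((m * m') x y) = ∑ z, φ (m x z) * φ (m' z y)
    simp [CStarMatrix.mul_apply]
  map_zero' := CStarMatrix.ext fun x y => by simp
  map_add' m m' := CStarMatrix.ext fun x y => by
    show φ (m x y + m' x y) = _
    rw [map_add]; rfl
  commutes' r := CStarMatrix.ext fun x y => by
    simp only [Algebra.algebraMap_eq_smul_one]
    simp [CStarMatrix.one_apply, apply_ite φ, map_smul]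
  map_star' m := CStarMatrix.ext fun x y => by
    show φ (star (m y x)) = star (φ (m y x))
    exact map_star φ _

theorem mapSt_eq_mapMat (φ : B →⋆ₐ[ℂ] A) (f : St B p q) (t : I) :
    (mapSt φ f : Amb A p q) t = mapMat φ ((f : Amb B p q) t) := rfl

end

end Vale.Agent.P101.Lit
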