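import Vale.Agent.P101.Lit.Flip.Defs
import Vale.Agent.P101.Lit.Transfer.MapSt

/-! P101: functions on the square as a double stage. -/

namespace Vale.Agent.P101.Lit

open scoped unitInterval ComplexOrder

variable {p q : ℕ}

section Square

-- shortcuts: the search for these instances is slow
noncomputable local instance : NonUnitalSemiring (St ℂ p q) := inferInstance
noncomputable local instance : NonUnitalNonAssocSemiring (St ℂ p q) := inferInstance
noncomputable local instance : Semiring (St ℂ p q) := inferInstance
noncomputable local instance : NonAssocSemiring (St ℂ p q) := inferInstance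
noncomputable local instance : Ring (St ℂ p q) := inferInstance
noncomputable local instance : Mul (St ℂ p q) := inferInstance
noncomputable local instance : One (St ℂ p q) := inferInstance
noncomputable local instance : Zero (St ℂ p q) := inferInstance
noncomputable local instance : Add (St ℂ p q) := inferInstance
noncomputable local instance : Sub (St ℂ p q) := inferInstance
noncomputable local instance : AddCommMonoid (St ℂ p q) := inferInstance
noncomputable local instance : Star (St ℂ p q) := inferInstance
noncomputable local instance : StarRing (St ℂ p q) := inferInstance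
noncomputable local instance : StarMul (St ℂ p q) := inferInstance
noncomputable local instance : Monoid (St ℂ p q) := inferInstance
noncomputable local instance : Algebra ℂ (St ℂ p q) := inferInstance
noncomputable local instance : SMul ℂ (St ℂ p q) := inferInstance
noncomputable local instance : NormedRing (St ℂ p q) := inferInstance
noncomputable local instance : Norm (St ℂ p q) := inferInstance
noncomputable local instance : TopologicalSpace (St ℂ p q) := inferInstance

variable [PartialOrder (St ℂ p q)] [StarOrderedRing (St ℂ p q)]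

-- shortcuts: the search for these instances is slow
noncomputable local instance : NonUnitalSemiring (St (St ℂ p q) p q) := inferInstance
noncomputable local instance : NonUnitalNonAssocSemiring (St (St ℂ p q) p q) := inferInstance
noncomputable local instance : Semiring (St (St ℂ p q) p q) := inferInstance
noncomputable local instance : NonAssocSemiring (St (St ℂ p q) p q) := inferInstance
noncomputable local instance : Ring (St (St ℂ p q) p q) := inferInstance
noncomputable local instance : Mul (St (St ℂ p q) p q) := inferInstance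
noncomputable local instance : One (St (St ℂ p q) p q) := inferInstance
noncomputable local instance : Zero (St (St ℂ p q) p q) := inferInstance
noncomputable local instance : Add (St (St ℂ p q) p q) := inferInstance
noncomputable local instance : Sub (St (St ℂ p q) p q) := inferInstance
noncomputable local instance : AddCommMonoid (St (St ℂ p q) p q) := inferInstance
noncomputable local instance : Star (St (St ℂ p q) p q) := inferInstance
noncomputable local instance : StarRing (St (St ℂ p q) p q) := inferInstance
noncomputable local instance : StarMul (St (St ℂ p q) p q) := inferInstance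
noncomputable local instance : Monoid (St (St ℂ p q) p q) := inferInstance
noncomputable local instance : Algebra ℂ (St (St ℂ p q) p q) := inferInstance
noncomputable local instance : SMul ℂ (St (St ℂ p q) p q) := inferInstance
noncomputable local instance : NormedRing (St (St ℂ p q) p q) := inferInstance
noncomputable local instance : Norm (St (St ℂ p q) p q) := inferInstance
noncomputable local instance : TopologicalSpace (St (St ℂ p q) p q) := inferInstance

/-- Evaluation of an entry, as an additive map. -/
noncomputable def entryHom (s : I) (x y : Ix p q) : St ℂ p q →+ ℂ where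
  toFun d := (d : Amb ℂ p q) s x y
  map_zero' := rfl
  map_add' _ _ := rfl

omit [PartialOrder (St ℂ p q)] [StarOrderedRing (St ℂ p q)] in
theorem entryHom_apply (s : I) (x y : Ix p q) (d : St ℂ p q) :
    entryHom s x y d = (d : Amb ℂ p q) s x y := rfl

omit [PartialOrder (St ℂ p q)] [StarOrderedRing (St ℂ p q)] in
theorem entryHom_mul (s : I) (x y : Ix p q) (d d' : St ℂ p q) :
    entryHom s x y (d * d') = ∑ z, entryHom s x z d * entryHom s z y d' := by
  simp only [entryHom_apply]
  exact CStarMatrix.mul_apply

omit [PartialOrder (St ℂ p q)] [StarOrderedRing (St ℂ p q)] in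
theorem entryHom_one (s : I) (x y : Ix p q) :
    entryHom s x y (1 : St ℂ p q) = if x = y then 1 else 0 := by
  rw [entryHom_apply]
  exact CStarMatrix.one_apply

/-- An element of the double stage as a continuous function on the square. -/
noncomputable def sqFun (f : St (St ℂ p q) p q) : C(I × I, Mat2 p q) :=
  ⟨fun z => CStarMatrix.ofMatrix <| Matrix.of fun X Y =>
      entryHom z.1 X.1 Y.1 ((f : Amb (St ℂ p q) p q) z.2 X.2 Y.2), by
    refine continuous_pi fun X => continuous_pi fun Y => ?_
    have h1 : Continuous fun z : I × I =>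
        (((f : Amb (St ℂ p q) p q) z.2 X.2 Y.2 : St ℂ p q) : Amb ℂ p q) :=
      continuous_subtype_val.comp ((continuous_apply_apply X.2 Y.2).comp
        ((f : Amb (St ℂ p q) p q).continuous.comp continuous_snd))
    exact (continuous_apply_apply X.1 Y.1).comp (h1.eval continuous_fst)⟩

theorem sqFun_apply (f : St (St ℂ p q) p q) (z : I × I) (X Y : Ix p q × Ix p q) :
    sqFun f z X Y = entryHom z.1 X.1 Y.1 ((f : Amb (St ℂ p q) p q) z.2 X.2 Y.2) := rfl

theorem sqFun_mul (b c : St (St ℂ p q) p q) : sqFun (b * c) = sqFun b * sqFun c := by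
  refine ContinuousMap.ext fun z => CStarMatrix.ext fun X Y => ?_
  rw [ContinuousMap.mul_apply, CStarMatrix.mul_apply, sqFun_apply, MulMemClass.coe_mul,
    ContinuousMap.mul_apply, CStarMatrix.mul_apply, map_sum]
  simp only [sqFun_apply, entryHom_mul]
  rw [Finset.sum_comm]
  exact (Fintype.sum_prod_type (fun Z : Ix p q × Ix p q =>
    entryHom z.1 X.1 Z.1 ((b : Amb (St ℂ p q) p q) z.2 X.2 Z.2) *
      entryHom z.1 Z.1 Y.1 ((c : Amb (St ℂ p q) p q) z.2 Z.2 Y.2))).symm

theorem sqFun_one : sqFun (1 : St (St ℂ p q) p q) = 1 := by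
  refine ContinuousMap.ext fun z => CStarMatrix.ext fun X Y => ?_
  rw [ContinuousMap.one_apply, sqFun_apply, OneMemClass.coe_one, ContinuousMap.one_apply,
    CStarMatrix.one_apply, CStarMatrix.one_apply, apply_ite (entryHom z.1 X.1 Y.1), map_zero,
    entryHom_one]
  simp only [Prod.ext_iff]
  split_ifs <;> simp_all

theorem sqFun_smul (r : ℂ) (b : St (St ℂ p q) p q) : sqFun (r • b) = r • sqFun b :=
  ContinuousMap.ext fun _ => CStarMatrix.ext fun _ _ => rfl

theorem sqFun_star (b : St (St ℂ p q) p q) : sqFun (star b) = star (sqFun b) :=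
  ContinuousMap.ext fun _ => CStarMatrix.ext fun _ _ => rfl

theorem sqFun_add (b c : St (St ℂ p q) p q) : sqFun (b + c) = sqFun b + sqFun c :=
  ContinuousMap.ext fun _ => CStarMatrix.ext fun _ _ => rfl

theorem sqFun_zero : sqFun (0 : St (St ℂ p q) p q) = 0 :=
  ContinuousMap.ext fun _ => CStarMatrix.ext fun _ _ => rfl

/-- An element of the double stage as a function on the square, as a homomorphism. -/
noncomputable def sqHom : St (St ℂ p q) p q →⋆ₐ[ℂ] C(I × I, Mat2 p q) where
  toFun := sqFun
  map_one' := sqFun_one
  map_mul' := sqFun_mul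
  map_zero' := sqFun_zero
  map_add' := sqFun_add
  commutes' r := by
    rw [Algebra.algebraMap_eq_smul_one, Algebra.algebraMap_eq_smul_one, sqFun_smul, sqFun_one]
  map_star' := sqFun_star

theorem sqHom_apply (f : St (St ℂ p q) p q) (s t : I) (X Y : Ix p q × Ix p q) :
    sqHom f (s, t) X Y =
      (((f : Amb (St ℂ p q) p q) t X.2 Y.2 : St ℂ p q) : Amb ℂ p q) s X.1 Y.1 := rfl

theorem sqHom_injective : Function.Injective (sqHom : St (St ℂ p q) p q →⋆ₐ[ℂ] _) :=
  fun _ _ h => Subtype.ext (ContinuousMap.ext fun t => CStarMatrix.ext fun a b =>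
    Subtype.ext (ContinuousMap.ext fun s => CStarMatrix.ext fun x y =>
      congrFun (congrFun (DFunLike.congr_fun h (s, t)) (x, a)) (y, b)))

theorem norm_sqFun (d : St (St ℂ p q) p q) : ‖sqFun d‖ = ‖d‖ :=
  NonUnitalStarAlgHom.norm_map (sqHom (p := p) (q := q)).toNonUnitalStarAlgHom
    (sqHom_injective (p := p) (q := q)) d

theorem sqFun_injective : Function.Injective (sqFun : St (St ℂ p q) p q → _) :=
  sqHom_injective (p := p) (q := q)

theorem sqFun_sub (b c : St (St ℂ p q) p q) : sqFun (b - c) = sqFun b - sqFun c :=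
  ContinuousMap.ext fun _ => CStarMatrix.ext fun _ _ => rfl

theorem sqFun_conj_sub (w c l : St (St ℂ p q) p q) :
    sqFun (w * c * star w - l) = sqFun w * sqFun c * star (sqFun w) - sqFun l := by
  rw [sqFun_sub, sqFun_mul, sqFun_mul, sqFun_star]

theorem sqFun_cst (g : St ℂ p q) (s t : I) :
    sqFun (cst (St ℂ p q) p q g) (s, t) = kron₁ ((g : Amb ℂ p q) s) :=
  CStarMatrix.ext fun X Y => by
    by_cases h : X.2 = Y.2 <;> simp [sqFun_apply, entryHom_apply, kron₁, h]

theorem sqFun_lift (g : St ℂ p q) (s t : I) :
    sqFun (lift (St ℂ p q) p q g) (s, t) = kron₂ ((g : Amb ℂ p q) t) :=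
  CStarMatrix.ext fun X Y => by
    by_cases h : X.1 = Y.1 <;>
      simp [sqFun_apply, entryHom_apply, kron₂, h, Algebra.algebraMap_eq_smul_one]

/-- A function on the square with the four end conditions comes from the double stage. -/
theorem exists_sqHom_eq (W : C(I × I, Mat2 p q))
    (h₁ : ∀ t a b, IsLeftEnd p q fun x y => W (0, t) (x, a) (y, b))
    (h₂ : ∀ t a b, IsRightEnd p q fun x y => W (1, t) (x, a) (y, b))
    (h₃ : ∀ s x y, IsLeftEnd p q fun a b => W (s, 0) (x, a) (y, b))
    (h₄ : ∀ s x y, IsRightEnd p q fun a b => W (s, 1) (x, a) (y, b)) :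
    ∃ w, sqFun (p := p) (q := q) w = W := by
  let E (a b : Ix p q) : C(I, Amb ℂ p q) := ContinuousMap.curry
    ⟨fun z : I × I => CStarMatrix.ofMatrix <| Matrix.of fun x y => W (z.2, z.1) (x, a) (y, b),
      continuous_pi fun x => continuous_pi fun y =>
        (continuous_apply_apply (x, a) (y, b)).comp (W.continuous.comp continuous_swap)⟩
  have hE : ∀ a b t, E a b t ∈ St ℂ p q := fun a b t => ⟨h₁ t a b, h₂ t a b⟩
  let e (a b : Ix p q) (t : I) : St ℂ p q := ⟨E a b t, hE a b t⟩
  have he : ∀ a b, Continuous (e a b) := fun a b => (E a b).continuous.subtype_mk _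
  let m : Amb (St ℂ p q) p q :=
    ⟨fun t => CStarMatrix.ofMatrix <| Matrix.of fun a b => e a b t,
      continuous_pi fun a => continuous_pi fun b => he a b⟩
  have hL : IsLeftEnd p q fun a b => m 0 a b := by
    rcases isEmpty_or_nonempty (Fin q) with hq | ⟨⟨j₀⟩⟩
    · exact ⟨fun _ _ => 0, fun x => isEmptyElim x.2⟩
    refine ⟨fun i i' => e (i, j₀) (i', j₀) 0, fun a b => Subtype.ext (ContinuousMap.ext fun s =>
      CStarMatrix.ext fun x y => ?_)⟩
    obtain ⟨α, hα⟩ := h₃ s x y
    show W (s, 0) (x, a) (y, b) = _
    split_ifs with h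
    · show W (s, 0) (x, a) (y, b) = W (s, 0) (x, (a.1, j₀)) (y, (b.1, j₀))
      exact ((hα a b).trans (if_pos h)).trans ((hα (a.1, j₀) (b.1, j₀)).trans (if_pos rfl)).symm
    · exact (hα a b).trans (if_neg h)
  have hR : IsRightEnd p q fun a b => m 1 a b := by
    rcases isEmpty_or_nonempty (Fin p) with hp | ⟨⟨i₀⟩⟩
    · exact ⟨fun _ _ => 0, fun x => isEmptyElim x.1⟩
    refine ⟨fun j j' => e (i₀, j) (i₀, j') 1, fun a b => Subtype.ext (ContinuousMap.ext fun s =>
      CStarMatrix.ext fun x y => ?_)⟩
    obtain ⟨α, hα⟩ := h₄ s x y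
    show W (s, 1) (x, a) (y, b) = _
    split_ifs with h
    · show W (s, 1) (x, a) (y, b) = W (s, 1) (x, (i₀, a.2)) (y, (i₀, b.2))
      exact ((hα a b).trans (if_pos h)).trans ((hα (i₀, a.2) (i₀, b.2)).trans (if_pos rfl)).symm
    · exact (hα a b).trans (if_neg h)
  exact ⟨⟨m, hL, hR⟩, ContinuousMap.ext fun _ => CStarMatrix.ext fun _ _ => rfl⟩

theorem mem_unitary_of_sqFun {w : St (St ℂ p q) p q}
    (h : ∀ z, sqFun w z ∈ unitary (Mat2 p q)) : w ∈ unitary (St (St ℂ p q) p q) := by
  have h₁ : sqFun (star w * w) = sqFun 1 := by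
    rw [sqFun_mul, sqFun_star, sqFun_one]
    exact ContinuousMap.ext fun z => (Unitary.mem_iff.1 (h z)).1
  have h₂ : sqFun (w * star w) = sqFun 1 := by
    rw [sqFun_mul, sqFun_star, sqFun_one]
    exact ContinuousMap.ext fun z => (Unitary.mem_iff.1 (h z)).2
  exact Unitary.mem_iff.2 ⟨sqFun_injective h₁, sqFun_injective h₂⟩

theorem norm_double_le {w : St (St ℂ p q) p q} {g : St ℂ p q} {ε : ℝ} (hε : 0 ≤ ε)
    (h : ∀ s t, ‖sqFun w (s, t) * kron₁ ((g : Amb ℂ p q) s) * star (sqFun w (s, t))
      - kron₂ ((g : Amb ℂ p q) t)‖ ≤ ε) :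
    ‖w * cst (St ℂ p q) p q g * star w - lift (St ℂ p q) p q g‖ ≤ ε := by
  refine (norm_sqFun (w * cst (St ℂ p q) p q g * star w
    - lift (St ℂ p q) p q g)).symm.trans_le ?_
  rw [sqFun_conj_sub]
  refine (ContinuousMap.norm_le _ hε).2 ?_
  rintro ⟨s, t⟩
  simp only [ContinuousMap.sub_apply, ContinuousMap.mul_apply, ContinuousMap.star_apply,
    sqFun_cst, sqFun_lift]
  exact h s t

end Square

end Vale.Agent.P101.Lit
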