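import Vale.Agent.P101.Lit.Transfer.Unitary

/-! P101: estimates near a unitary. -/

namespace Vale.Agent.P101.Lit

open scoped unitInterval ComplexOrder
open Filter Topology

section Generic

variable {R : Type*} [CStarAlgebra R]

theorem norm_conj_perturb (u w c : R) :
    ‖u * c * star u - w * c * star w‖ ≤ ‖u - w‖ * ‖c‖ * (‖u‖ + ‖w‖) := by
  have e : u * c * star u - w * c * star w
      = (u - w) * c * star u + w * c * star (u - w) := by
    rw [star_sub]; noncomm_ring
  rw [e]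
  refine (norm_add_le _ _).trans ?_
  have h1 := norm_mul₃_le (a := u - w) (b := c) (c := star u)
  have h2 := norm_mul₃_le (a := w) (b := c) (c := star (u - w))
  rw [norm_star] at h1 h2
  nlinarith

theorem norm_le_one_of_unitary {u : R} (h : u ∈ unitary R) : ‖u‖ ≤ 1 := by
  rcases subsingleton_or_nontrivial R with _ | _
  · simp [Subsingleton.elim u 0]
  · exact (CStarRing.norm_of_mem_unitary h).le

theorem norm_near_unitary {x u : R} (hu : u ∈ unitary R) {δ : ℝ} (hδ0 : 0 < δ) (hδ : δ < 1)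
    (hx : ‖x - u‖ ≤ δ) :
    ‖star x * x - 1‖ < 3 * δ ∧ ‖x * star x - 1‖ < 3 * δ := by
  have hun := norm_le_one_of_unitary hu
  have hxn : ‖x‖ ≤ 1 + δ := by linarith [norm_le_norm_add_norm_sub' x u]
  have hx' : ‖star x - star u‖ ≤ δ := by rwa [← star_sub, norm_star]
  constructor
  · have e : star x * x - 1 = (star x - star u) * x + star u * (x - u) := by
      rw [← (Unitary.mem_iff.1 hu).1]; noncomm_ring
    rw [e]
    have h1 : ‖(star x - star u) * x‖ ≤ δ * (1 + δ) :=
      (norm_mul_le _ _).trans (mul_le_mul hx' hxn (norm_nonneg _) hδ0.le)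
    have h2 : ‖star u * (x - u)‖ ≤ 1 * δ :=
      (norm_mul_le _ _).trans (mul_le_mul (by rwa [norm_star]) hx (norm_nonneg _) zero_le_one)
    nlinarith [norm_add_le ((star x - star u) * x) (star u * (x - u))]
  · have e : x * star x - 1 = (x - u) * star x + u * (star x - star u) := by
      rw [← (Unitary.mem_iff.1 hu).2]; noncomm_ring
    rw [e]
    have h1 : ‖(x - u) * star x‖ ≤ δ * (1 + δ) :=
      (norm_mul_le _ _).trans (mul_le_mul hx (by rwa [norm_star]) (norm_nonneg _) hδ0.le)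
    have h2 : ‖u * (star x - star u)‖ ≤ 1 * δ :=
      (norm_mul_le _ _).trans (mul_le_mul hun hx' (norm_nonneg _) zero_le_one)
    nlinarith [norm_add_le ((x - u) * star x) (u * (star x - star u))]

theorem norm_conj_near {x u c l : R} (hu : u ∈ unitary R) {δ M ε : ℝ} (hδ0 : 0 < δ) (hδ : δ < 1)
    (hM : 0 < M) (hx : ‖x - u‖ ≤ δ) (hc : ‖c‖ ≤ M) (h : ‖u * c * star u - l‖ ≤ ε) :
    ‖x * c * star x - l‖ < ε + 4 * δ * M := by
  have hun := norm_le_one_of_unitary hu
  have hxn : ‖x‖ ≤ 1 + δ := by linarith [norm_le_norm_add_norm_sub' x u]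
  have h1 := norm_conj_perturb x u c
  have h3 : ‖x - u‖ * ‖c‖ * (‖x‖ + ‖u‖) ≤ δ * M * (2 + δ) :=
    mul_le_mul (mul_le_mul hx hc (norm_nonneg _) hδ0.le) (by linarith) (by positivity)
      (by positivity)
  have h4 := norm_sub_le_norm_sub_add_norm_sub (x * c * star x) (u * c * star u) l
  nlinarith [mul_pos hδ0 hM]

/-- From an almost unitary `y` to a unitary, keeping commutators and conjugates. -/
theorem exists_unitary_adjust {y : R} {δ M : ℝ} (hδ0 : 0 < δ) (hδ : δ ≤ 1 / 24) (hM : 0 < M)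
    (h₁ : ‖star y * y - 1‖ < 3 * δ) (h₂ : ‖y * star y - 1‖ < 3 * δ) :
    ∃ v ∈ unitary R, (∀ a : R, ‖a‖ ≤ M →
        ‖v * a - a * v‖ ≤ ‖y * a - a * y‖ + 24 * δ * M) ∧
      ∀ c l : R, ‖c‖ ≤ M → ‖l - v * c * star v‖ ≤ ‖y * c * star y - l‖ + 36 * δ * M := by
  obtain ⟨v, hv, hvy⟩ := exists_unitary_near (y := y) (δ := 3 * δ) (by linarith) h₁.le h₂.le
  have hvy' : ‖v - y‖ ≤ 12 * δ := hvy.trans (by linarith)
  have hvn := norm_le_one_of_unitary hv
  have hyn : ‖y‖ ≤ 2 := by
    linarith [norm_le_norm_add_norm_sub' y v, norm_sub_rev y v]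
  refine ⟨v, hv, fun a ha => ?_, fun c l hc => ?_⟩
  · have e : v * a - a * v = (y * a - a * y) + ((v - y) * a - a * (v - y)) := by noncomm_ring
    rw [e]
    have h2 : ‖(v - y) * a‖ ≤ 12 * δ * M :=
      (norm_mul_le _ _).trans (mul_le_mul hvy' ha (norm_nonneg _) (by positivity))
    have h3 : ‖a * (v - y)‖ ≤ M * (12 * δ) :=
      (norm_mul_le _ _).trans (mul_le_mul ha hvy' (norm_nonneg _) hM.le)
    nlinarith [norm_add_le (y * a - a * y) ((v - y) * a - a * (v - y)),
      norm_sub_le ((v - y) * a) (a * (v - y))]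
  · have h2 := norm_conj_perturb v y c
    have h3 : ‖v - y‖ * ‖c‖ * (‖v‖ + ‖y‖) ≤ 12 * δ * M * 3 :=
      mul_le_mul (mul_le_mul hvy' hc (norm_nonneg _) (by positivity)) (by linarith)
        (by positivity) (by positivity)
    have h4 := norm_sub_le_norm_sub_add_norm_sub (v * c * star v) (y * c * star y) l
    rw [norm_sub_rev]
    nlinarith

end Generic

end Vale.Agent.P101.Lit
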