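import Vale.Agent.P101.Fomega.Main
import Vale.Agent.P101.Lit.Transfer.MapSt

/-! P101: evaluation of central sequences, and unitaries pushed through coefficient maps. -/

namespace Vale.Agent.P101.Lit

open scoped unitInterval ComplexOrder BoundedContinuousFunction
open Filter Topology

variable {A : Type*} [CStarAlgebra A] [PartialOrder A] [StarOrderedRing A] {ω : Ultrafilter ℕ}

/-- The `n`-th term of a central sequence. -/
noncomputable def evalSeq (n : ℕ) : centralSeq A ω →⋆ₐ[ℂ] A where
  toFun x := (x : ℕ →ᵇ A) n
  map_one' := rfl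
  map_mul' _ _ := rfl
  map_zero' := rfl
  map_add' _ _ := rfl
  commutes' r := by
    simp [Algebra.algebraMap_eq_smul_one]
  map_star' _ := rfl

omit [PartialOrder A] [StarOrderedRing A] in
theorem tendsto_of_fomegaMk_eq_zero (z : centralSeq A ω) (hz : fomegaMk z = 0) :
    Tendsto (fun n => evalSeq n z) ω (𝓝 0) :=
  ((mk_eq_iff z 0).1 (by rw [hz, map_zero])).congr fun _ => sub_zero _

end Vale.Agent.P101.Lit
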