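import Vale.Agent.P101.Lit.Transfer.MapSt

/-! P101: norms in a stage over a limit algebra bound the norms of the terms along a filter. -/

open Filter Topology
open scoped unitInterval ComplexOrder

namespace Vale.Agent.P101.Lit

variable {A B B' : Type*} [CStarAlgebra A] [PartialOrder A] [StarOrderedRing A]
  [CStarAlgebra B] [PartialOrder B] [StarOrderedRing B]
  [CStarAlgebra B'] [PartialOrder B'] [StarOrderedRing B'] {p q : ℕ}

/-- Entries tending to zero give norms tending to zero, uniformly in the parameter. -/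
theorem eventually_norm_lt_of_entries {α : Type*} {l : Filter α} (φ : α → B →⋆ₐ[ℂ] A)
    (y : St B p q)
    (h : ∀ t x z, Tendsto (fun n => φ n ((y : Amb B p q) t x z)) l (𝓝 0)) {η : ℝ} (hη : 0 < η) :
    ∀ᶠ n in l, ‖mapSt (φ n) y‖ < η := by
  obtain ⟨d, hd, hyd⟩ := Metric.uniformContinuous_iff.1
    (CompactSpace.uniformContinuous_of_continuous (y : Amb B p q).continuous)
    (η / 4) (by positivity)
  obtain ⟨N, -, hN, hcov⟩ :=
    finite_cover_balls_of_compact (s := (Set.univ : Set I)) isCompact_univ hd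
  have hnull : ∀ t : I, Tendsto (fun n => ‖mapMat (φ n) ((y : Amb B p q) t)‖) l (𝓝 0) := by
    intro t
    rw [← tendsto_zero_iff_norm_tendsto_zero]
    exact tendsto_pi_nhds.2 fun x => tendsto_pi_nhds.2 fun z => h t x z
  have hsmall : ∀ᶠ n in l, ∀ t ∈ N, ‖mapMat (φ n) ((y : Amb B p q) t)‖ < η / 4 :=
    hN.eventually_all.2 fun t _ => (hnull t).eventually (gt_mem_nhds (by positivity))
  filter_upwards [hsmall] with n hn
  refine lt_of_le_of_lt ((ContinuousMap.norm_le _ (by positivity : (0 : ℝ) ≤ η / 2)).2 fun t => ?_)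
    (by linarith : η / 2 < η)
  obtain ⟨c, hc, htc⟩ := Set.mem_iUnion₂.1 (hcov (Set.mem_univ t))
  have hclose := hyd (Metric.mem_ball.1 htc)
  rw [dist_eq_norm] at hclose
  have h1 := NonUnitalStarAlgHom.norm_apply_le (mapMat (φ n))
    ((y : Amb B p q) t - (y : Amb B p q) c)
  rw [map_sub] at h1
  show ‖mapMat (φ n) ((y : Amb B p q) t)‖ ≤ η / 2
  linarith [norm_le_norm_add_norm_sub' (mapMat (φ n) ((y : Amb B p q) t))
    (mapMat (φ n) ((y : Amb B p q) c)), hn c hc, h1.trans hclose.le]

/-- If the maps `φ n` vanish asymptotically on the kernel of `π`, norms after `π` bound the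
norms of the terms. -/
theorem eventually_norm_lt {α : Type*} {l : Filter α} (π : B →⋆ₐ[ℂ] B')
    (φ : α → B →⋆ₐ[ℂ] A) (hφ : ∀ b, π b = 0 → Tendsto (fun n => φ n b) l (𝓝 0))
    (x : St B p q) {c : ℝ} (h : ‖mapSt π x‖ < c) :
    ∀ᶠ n in l, ‖mapSt (φ n) x‖ < c := by
  have hc : 0 < c := (norm_nonneg _).trans_lt h
  set a := star x * x with ha
  set r := ‖mapSt π x‖ ^ 2 with hr
  set f : ℝ → ℝ := fun s => max (s - r) 0 with hf
  have hfc : ∀ s : Set ℝ, ContinuousOn f s := fun s =>
    (by fun_prop : Continuous f).continuousOn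
  have hsa : IsSelfAdjoint a := IsSelfAdjoint.star_mul_self x
  have hq : mapSt π (cfc f a) = 0 := by
    rw [StarAlgHomClass.map_cfc (mapSt π) f a (hfc _) (continuous_hom _) hsa (hsa.map _)]
    refine (cfc_congr fun s hs => ?_).trans (cfc_zero ℝ _)
    rcases subsingleton_or_nontrivial (St B' p q) with _ | _
    · simp [spectrum.of_subsingleton] at hs
    have h1 : ‖s‖ ≤ r := by
      refine (spectrum.norm_le_norm_of_mem hs).trans_eq ?_
      rw [ha, map_mul, map_star, CStarRing.norm_star_mul_self, hr, sq]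
    simp only [hf, Pi.zero_apply]
    exact max_eq_right (by linarith [(abs_le.1 h1).2])
  have hgap : 0 < c ^ 2 - r := by
    have := norm_nonneg (mapSt π x)
    rw [hr]; nlinarith
  filter_upwards [eventually_norm_lt_of_entries φ (cfc f a) (fun t u z => hφ _
    (congrArg (fun w : St B' p q => (w : Amb B' p q) t u z) hq)) hgap] with n hn
  set b := mapSt (φ n) a with hb
  have hbsa : IsSelfAdjoint b := hsa.map _
  rw [StarAlgHomClass.map_cfc (mapSt (φ n)) f a (hfc _) (continuous_hom _) hsa hbsa, ← hb] at hn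
  have hbn : ‖b‖ < c ^ 2 := by
    rw [← cfc_id ℝ b hbsa]
    refine lt_of_le_of_lt (norm_cfc_le (c := r + ‖cfc f b‖) (by positivity) fun s hs => ?_)
      (by linarith)
    have h1 : ‖f s‖ ≤ ‖cfc f b‖ := norm_apply_le_norm_cfc f b hs (hfc _) hbsa
    have h2 : 0 ≤ s := by
      rw [hb, ha, map_mul, map_star] at hs
      exact spectrum_star_mul_self_nonneg s hs
    rw [id, Real.norm_of_nonneg h2]
    rw [hf, Real.norm_of_nonneg (le_max_right _ _)] at h1
    linarith [le_max_left (s - r) 0]
  rw [hb, ha, map_mul, map_star, CStarRing.norm_star_mul_self] at hbn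
  exact lt_of_pow_lt_pow_left₀ 2 hc.le (by rw [sq]; exact hbn)

end Vale.Agent.P101.Lit
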