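import Vale.Agent.P101.Lit.Tensor
import Vale.Agent.P101.Lit.Transfer.Lift
import Vale.Agent.P101.Lit.Transfer.Near

/-! P101: transfer of a unitary over a limit algebra to unitaries over `A`, abstract form. -/

namespace Vale.Agent.P101.Lit

open scoped unitInterval ComplexOrder
open Filter Topology

variable {A B C : Type*} [CStarAlgebra A] [PartialOrder A] [StarOrderedRing A]
  [CStarAlgebra B] [PartialOrder B] [StarOrderedRing B]
  [CStarAlgebra C] [PartialOrder C] [StarOrderedRing C] {p q : ℕ}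

set_option maxHeartbeats 1600000 in
-- the instances of the stages are expensive to unify
/-- Transfer: `B` is a limit algebra of `A` along `l`, with representatives in `C`. -/
theorem transfer_core {l : Filter ℕ} [l.NeBot] (π : C →⋆ₐ[ℂ] B) (hπ : Function.Surjective π)
    (φ : ℕ → C →⋆ₐ[ℂ] A) (hnull : ∀ c, π c = 0 → Tendsto (fun n => φ n c) l (𝓝 0))
    (hcomm : ∀ c a, Tendsto (fun n => φ n c * a - a * φ n c) l (𝓝 0))
    {G : Set (St ℂ p q)} (hG : G.Finite) (β : St ℂ p q → B) {ε : ℝ} (hε : 0 < ε)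
    {V : St B p q} (hV : V ∈ unitary (St B p q))
    (hVG : ∀ g ∈ G, ‖V * cst B p q (β g) * star V - lift B p q g‖ ≤ ε) (F : Finset A) :
    ∃ v ∈ unitary (St A p q),
      (∀ a ∈ F, ‖v * cst A p q a - cst A p q a * v‖ ≤ ε) ∧
      ∀ g ∈ G, ∃ c : A, ‖lift A p q g - v * cst A p q c * star v‖ ≤ 2 * ε := by
  choose rep hrep using hπ
  obtain ⟨M, hM0, hMF, hMG⟩ : ∃ M : ℝ, 0 < M ∧ (∀ a ∈ F, ‖a‖ ≤ M) ∧
      ∀ g ∈ G, ‖β g‖ ≤ M ∧ ‖rep (β g)‖ ≤ M := by
    have h0 : 0 ≤ ∑ a ∈ F, ‖a‖ := Finset.sum_nonneg fun a _ => norm_nonneg a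
    have h1 : 0 ≤ ∑ g ∈ hG.toFinset, (‖β g‖ + ‖rep (β g)‖) :=
      Finset.sum_nonneg fun g _ => by positivity
    refine ⟨1 + (∑ a ∈ F, ‖a‖) + ∑ g ∈ hG.toFinset, (‖β g‖ + ‖rep (β g)‖), by linarith,
      fun a ha => ?_, fun g hg => ?_⟩
    · linarith [Finset.single_le_sum (fun a _ => norm_nonneg a) ha]
    · have h2 := Finset.single_le_sum (f := fun g => ‖β g‖ + ‖rep (β g)‖)
        (fun g _ => by positivity) (hG.mem_toFinset.2 hg)
      constructor <;> linarith [norm_nonneg (β g), norm_nonneg (rep (β g))]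
  set δ := min (1 / 24) (ε / (80 * M)) with hδ
  have hδ0 : 0 < δ := lt_min (by norm_num) (by positivity)
  have hδ1 : δ ≤ 1 / 24 := min_le_left _ _
  have hδM : δ * M ≤ ε / 80 := by
    have := (le_div_iff₀ (by positivity)).1 (min_le_right (1 / 24) (ε / (80 * M)))
    linarith
  obtain ⟨m, b, h, hb⟩ := exists_tensor_approx V hδ0
  set x : St C p q := ∑ i, cst C p q (rep (b i)) * lift C p q (h i) with hx
  have hπx : mapSt π x = ∑ i, cst B p q (b i) * lift B p q (h i) := by
    rw [hx, mapSt_tensor]; simp only [hrep]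
  have hXV : ‖mapSt π x - V‖ ≤ δ := by rw [hπx, norm_sub_rev]; exact hb
  have key : ∀ (z : St C p q) {c : ℝ}, ‖mapSt π z‖ < c →
      ∀ᶠ n in l, ‖mapSt (φ n) z‖ < c := fun z c hc => eventually_norm_lt π φ hnull z hc
  obtain ⟨hX1, hX2⟩ := norm_near_unitary hV hδ0 (by linarith) hXV
  have e1 := key (star x * x - 1) (c := 3 * δ) (by rwa [map_sub, map_mul, map_star, map_one])
  have e2 := key (x * star x - 1) (c := 3 * δ) (by rwa [map_sub, map_mul, map_star, map_one])
  have e3 : ∀ᶠ n in l, ∀ g ∈ G,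
      ‖mapSt (φ n) x * cst A p q (φ n (rep (β g))) * star (mapSt (φ n) x) - lift A p q g‖
        < ε + 4 * δ * M := by
    refine hG.eventually_all.2 fun g hg => ?_
    have hlt := norm_conj_near hV hδ0 (by linarith) hM0 hXV
      ((NonUnitalStarAlgHom.norm_apply_le _ _).trans (hMG g hg).1) (hVG g hg)
    filter_upwards [key (x * cst C p q (rep (β g)) * star x - lift C p q g)
      (c := ε + 4 * δ * M)
      (by rwa [map_sub, map_mul, map_mul, map_star, mapSt_cst, mapSt_lift, hrep])] with n hn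
    rwa [map_sub, map_mul, map_mul, map_star, mapSt_cst, mapSt_lift] at hn
  have e4 : ∀ᶠ n in l, ∀ a ∈ F,
      ‖mapSt (φ n) x * cst A p q a - cst A p q a * mapSt (φ n) x‖ < ε / 2 := by
    refine F.eventually_all.2 fun a _ => ?_
    have hT : Tendsto (fun n => ∑ i, ‖φ n (rep (b i)) * a - a * φ n (rep (b i))‖ *
        ‖lift A p q (h i)‖) l (𝓝 0) := by
      simpa using tendsto_finsetSum Finset.univ fun i _ =>
        ((tendsto_zero_iff_norm_tendsto_zero.1 (hcomm (rep (b i)) a)).mul_const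
          ‖lift A p q (h i)‖)
    filter_upwards [hT.eventually (gt_mem_nhds (half_pos hε))] with n hn
    rw [hx, mapSt_tensor]
    exact (norm_tensor_commutator_le _ h a).trans_lt hn
  obtain ⟨n, hn1, hn2, hn3, hn4⟩ := (e1.and (e2.and (e3.and e4))).exists
  rw [map_sub, map_mul, map_star, map_one] at hn1 hn2
  obtain ⟨v, hv, hva, hvc⟩ := exists_unitary_adjust hδ0 hδ1 hM0 hn1 hn2
  refine ⟨v, hv, fun a ha => ?_, fun g hg => ⟨φ n (rep (β g)), ?_⟩⟩
  · have := hva _ ((NonUnitalStarAlgHom.norm_apply_le (cst A p q) a).trans (hMF a ha))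
    linarith [hn4 a ha]
  · have := hvc (cst A p q (φ n (rep (β g)))) (lift A p q g)
      ((NonUnitalStarAlgHom.norm_apply_le (cst A p q) _).trans
        ((NonUnitalStarAlgHom.norm_apply_le (φ n) _).trans (hMG g hg).2))
    linarith [hn3 g hg]

end Vale.Agent.P101.Lit
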