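import Vale.Agent.P101.Lit.Transfer.Map

/-! P101: an approximate half flip gives a unitary of the double stage. -/

namespace Vale.Agent.P101.Lit

open scoped unitInterval ComplexOrder

variable {p q : ℕ} [PartialOrder (St ℂ p q)] [StarOrderedRing (St ℂ p q)]

set_option maxHeartbeats 1600000 in
-- the instances of the double stage are expensive to unify
theorem exists_double_flip {G : Set (St ℂ p q)} {ε : ℝ} (hε : 0 ≤ ε) {W : C(I × I, Mat2 p q)}
    (hW : IsFlip G ε W) :
    ∃ w ∈ unitary (St (St ℂ p q) p q),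
      ∀ g ∈ G, ‖w * cst (St ℂ p q) p q g * star w - lift (St ℂ p q) p q g‖ ≤ ε := by
  obtain ⟨hU, h₁, h₂, h₃, h₄, hG⟩ := hW
  obtain ⟨w, hw⟩ := exists_sqHom_eq W h₁ h₂ h₃ h₄
  exact ⟨w, mem_unitary_of_sqFun fun z => hw.symm ▸ hU z,
    fun g hg => norm_double_le hε fun s t => hw.symm ▸ hG g hg s t⟩

end Vale.Agent.P101.Lit
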