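import Mathlib

/-! P101: an almost unitary element is near a unitary. -/

namespace Vale.Agent.P101.Lit

theorem exists_unitary_near {R : Type*} [CStarAlgebra R] {y : R} {δ : ℝ} (hδ : δ ≤ 1 / 2)
    (h₁ : ‖star y * y - 1‖ ≤ δ) (h₂ : ‖y * star y - 1‖ ≤ δ) :
    ∃ v ∈ unitary R, ‖v - y‖ ≤ 4 * δ := by
  rcases subsingleton_or_nontrivial R with hR | hR
  · exact ⟨1, one_mem _, by simp [Subsingleton.elim (1 - y : R) 0]; linarith [norm_nonneg (star y * y - 1)]⟩
  have hδ0 : 0 ≤ δ := (norm_nonneg _).trans h₁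
  set a := star y * y with ha
  have hsa : IsSelfAdjoint a := IsSelfAdjoint.star_mul_self y
  have hspec : ∀ x ∈ spectrum ℝ a, |x - 1| ≤ δ := by
    intro x hx
    have h1 : x - 1 ∈ spectrum ℝ (a - 1) := by
      rw [← map_one (algebraMap ℝ R), ← spectrum.sub_singleton_eq]
      exact Set.sub_mem_sub hx rfl
    have := spectrum.norm_le_norm_of_mem h1
    rw [Real.norm_eq_abs] at this
    exact this.trans h₁
  set f : ℝ → ℝ := fun x => (Real.sqrt x)⁻¹ with hf
  have hpos : ∀ x ∈ spectrum ℝ a, (1 / 2 : ℝ) ≤ x := fun x hx => by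
    linarith [(abs_le.1 (hspec x hx)).1]
  have hfc : ContinuousOn f (spectrum ℝ a) :=
    Real.continuous_sqrt.continuousOn.inv₀ fun x hx =>
      (Real.sqrt_pos.2 (by linarith [hpos x hx])).ne'
  set g := cfc f a with hg
  have hgsa : star g = g := (cfc_predicate f a : IsSelfAdjoint g)
  have hgag : g * a * g = 1 := by
    conv_lhs => rw [hg]; arg 1; arg 2; rw [← cfc_id ℝ a hsa]
    rw [← cfc_mul f id a hfc continuousOn_id,
      ← cfc_mul (fun x => f x * id x) f a (hfc.mul continuousOn_id) hfc,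
      ← cfc_one ℝ a hsa]
    refine cfc_congr fun x hx => ?_
    have hx0 : 0 < x := by linarith [hpos x hx]
    simp only [hf, id, Pi.one_apply]
    rw [mul_comm, ← mul_assoc, ← mul_inv, Real.mul_self_sqrt hx0.le, inv_mul_cancel₀ hx0.ne']
  have hl : star (y * g) * (y * g) = 1 := by
    rw [star_mul, hgsa, ← hgag, ha]; simp only [mul_assoc]
  have hu : IsUnit (y * star y) := by
    simpa using isUnit_one_sub_of_norm_lt_one (x := 1 - y * star y)
      (by rw [norm_sub_rev]; linarith)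
  have hu' : IsUnit a := by
    simpa using isUnit_one_sub_of_norm_lt_one (x := 1 - a) (by rw [norm_sub_rev]; linarith)
  have hug : IsUnit g := by
    rw [hg, isUnit_cfc_iff f a hfc hsa]
    exact fun x hx => inv_ne_zero (Real.sqrt_pos.2 (by linarith [hpos x hx])).ne'
  have huy : IsUnit y := by
    obtain ⟨r, hr⟩ := hu.exists_right_inv
    obtain ⟨l, hl'⟩ := hu'.exists_left_inv
    exact isUnit_iff_exists_and_exists.2
      ⟨⟨star y * r, by rw [← mul_assoc]; exact hr⟩, ⟨l * star y, by rw [mul_assoc]; exact hl'⟩⟩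
  have hv : y * g ∈ unitary R := by
    refine Unitary.mem_iff.2 ⟨hl, ?_⟩
    obtain ⟨r, hr⟩ := (huy.mul hug).exists_right_inv
    calc y * g * star (y * g) = y * g * (star (y * g) * (y * g)) * r := by
          simp only [mul_assoc, hr, mul_one]
      _ = 1 := by rw [hl, mul_one, hr]
  have hyn : ‖y‖ ≤ 2 := by
    have h3 : ‖y‖ * ‖y‖ ≤ 1 + δ := by
      rw [← CStarRing.norm_star_mul_self]
      calc ‖a‖ = ‖(a - 1) + 1‖ := by rw [sub_add_cancel]
        _ ≤ δ + 1 := (norm_add_le _ _).trans (add_le_add h₁ CStarRing.norm_one.le)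
        _ = 1 + δ := add_comm _ _
    nlinarith [norm_nonneg y]
  have hgn : ‖g - 1‖ ≤ 2 * δ := by
    rw [← cfc_one ℝ a hsa, hg, ← cfc_sub f 1 a hfc continuousOn_const]
    refine norm_cfc_le (by linarith) fun x hx => ?_
    have h3 := abs_le.1 (hspec x hx)
    have hx0 := hpos x hx
    set u := Real.sqrt x with hu
    have hu2 : u * u = x := Real.mul_self_sqrt (by linarith)
    have hu0 : 0 < u := Real.sqrt_pos.2 (by linarith)
    simp only [hf, Pi.one_apply, Real.norm_eq_abs]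
    rw [← hu, abs_le]
    constructor
    · have : u⁻¹ * u = 1 := inv_mul_cancel₀ hu0.ne'
      nlinarith [inv_pos.2 hu0]
    · have : u⁻¹ * u = 1 := inv_mul_cancel₀ hu0.ne'
      nlinarith [inv_pos.2 hu0]
  refine ⟨y * g, hv, ?_⟩
  calc ‖y * g - y‖ = ‖y * (g - 1)‖ := by rw [mul_sub, mul_one]
    _ ≤ ‖y‖ * ‖g - 1‖ := norm_mul_le _ _
    _ ≤ 2 * (2 * δ) := mul_le_mul hyn hgn (norm_nonneg _) (by norm_num)
    _ = 4 * δ := by ring

end Vale.Agent.P101.Lit
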